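import Vale.Agent.Lib.P130.Morse.TrigB
import Vale.Agent.Lib.P130.KsetM

/-!
# P130 rank one: the transfer lemma, algebraic part

Functions `G(t,u) = ∑_{|k| ≤ D} e(kt) g_k(u)` with continuous `g_k`; restricted to the line
`u = H t`, with `H` larger than the degree, they have the same mean.
-/

open MeasureTheory Filter Topology
open scoped ENNReal ComplexConjugate

namespace P130

/-- polynomials of degree at most `D` in the first variable -/
def Cls (D : ℕ) (G : 𝕋 → 𝕋 → ℂ) : Prop :=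
  ∃ g : ℤ → 𝕋 → ℂ, (∀ k, Continuous (g k)) ∧
    ∀ t u, G t u = ∑ k ∈ Finset.Icc (-(D : ℤ)) D, fourier k t * g k u

theorem tr_int {f : 𝕋 → ℂ} (hf : Continuous f) : Integrable f mT :=
  hf.integrable_of_hasCompactSupport (HasCompactSupport.of_compactSpace f)

theorem tr_intR {f : 𝕋 → ℝ} (hf : Continuous f) : Integrable f mT :=
  hf.integrable_of_hasCompactSupport (HasCompactSupport.of_compactSpace f)

/-- general form: any finite family of terms with frequencies in `[-D, D]` -/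
theorem Cls.of_sum {ι : Type*} (I : Finset ι) (φ : ι → ℤ) (w : ι → 𝕋 → ℂ)
    (hw : ∀ i ∈ I, Continuous (w i)) (D : ℕ) (hφ : ∀ i ∈ I, φ i ∈ Finset.Icc (-(D : ℤ)) D) :
    Cls D (fun t u => ∑ i ∈ I, fourier (φ i) t * w i u) := by
  classical
  refine ⟨fun k u => ∑ i ∈ I with φ i = k, w i u, fun k => ?_, fun t u => ?_⟩
  · exact continuous_finsetSum _ fun i hi => hw i (Finset.mem_filter.1 hi).1
  · show ∑ i ∈ I, (fourier (φ i) t : ℂ) * w i u =
      ∑ k ∈ Finset.Icc (-(D : ℤ)) D, (fourier k t : ℂ) * ∑ i ∈ I with φ i = k, w i u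
    rw [← Finset.sum_fiberwise_of_maps_to hφ]
    refine Finset.sum_congr rfl fun l _ => ?_
    rw [Finset.mul_sum]
    refine Finset.sum_congr rfl fun p hp => ?_
    rw [(Finset.mem_filter.1 hp).2]

theorem Cls.mono {D D' : ℕ} (h : D ≤ D') {G : 𝕋 → 𝕋 → ℂ} (hG : Cls D G) : Cls D' G := by
  obtain ⟨g, hg, hG⟩ := hG
  have h1 := Cls.of_sum (Finset.Icc (-(D : ℤ)) D) (fun k => k) g (fun k _ => hg k) D' (by
    intro i hi
    rw [Finset.mem_Icc] at hi ⊢
    omega)
  obtain ⟨g', hg', h2⟩ := h1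
  exact ⟨g', hg', fun t u => by rw [hG, ← h2]⟩

theorem Cls.congr {D : ℕ} {G G' : 𝕋 → 𝕋 → ℂ} (hG : Cls D G) (h : ∀ t u, G' t u = G t u) :
    Cls D G' := by
  obtain ⟨g, hg, hG⟩ := hG
  exact ⟨g, hg, fun t u => by rw [h, hG]⟩

theorem Cls.mul {D D' : ℕ} {G G' : 𝕋 → 𝕋 → ℂ} (hG : Cls D G) (hG' : Cls D' G') :
    Cls (D + D') (fun t u => G t u * G' t u) := by
  obtain ⟨g, hg, hG⟩ := hG
  obtain ⟨g', hg', hG'⟩ := hG'
  have h1 := Cls.of_sum (Finset.Icc (-(D : ℤ)) D ×ˢ Finset.Icc (-(D' : ℤ)) D')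
    (fun p => p.1 + p.2) (fun p u => g p.1 u * g' p.2 u)
    (fun p _ => (hg p.1).mul (hg' p.2)) (D + D') (by
    intro i hi
    rw [Finset.mem_product, Finset.mem_Icc, Finset.mem_Icc] at hi
    rw [Finset.mem_Icc]
    push_cast
    omega)
  refine h1.congr fun t u => ?_
  rw [hG, hG', Finset.sum_mul_sum, ← Finset.sum_product']
  refine Finset.sum_congr rfl fun p _ => ?_
  rw [fourier_add]
  ring

theorem Cls.conj {D : ℕ} {G : 𝕋 → 𝕋 → ℂ} (hG : Cls D G) :
    Cls D (fun t u => (starRingEnd ℂ) (G t u)) := by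
  obtain ⟨g, hg, hG⟩ := hG
  have h1 := Cls.of_sum (Finset.Icc (-(D : ℤ)) D) (fun k => -k)
    (fun k u => (starRingEnd ℂ) (g k u)) (fun k _ => Complex.continuous_conj.comp (hg k)) D (by
    intro i hi
    rw [Finset.mem_Icc] at hi ⊢
    omega)
  refine h1.congr fun t u => ?_
  rw [hG, map_sum]
  refine Finset.sum_congr rfl fun p _ => ?_
  rw [map_mul, fourier_neg]

theorem Cls.add {D : ℕ} {G G' : 𝕋 → 𝕋 → ℂ} (hG : Cls D G) (hG' : Cls D G') :
    Cls D (fun t u => G t u + G' t u) := by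
  obtain ⟨g, hg, hG⟩ := hG
  obtain ⟨g', hg', hG'⟩ := hG'
  refine ⟨fun k u => g k u + g' k u, fun k => (hg k).add (hg' k), fun t u => ?_⟩
  show G t u + G' t u = ∑ k ∈ Finset.Icc (-(D : ℤ)) D, (fourier k t : ℂ) * (g k u + g' k u)
  rw [hG, hG', ← Finset.sum_add_distrib]
  refine Finset.sum_congr rfl fun p _ => ?_
  ring

theorem Cls.neg {D : ℕ} {G : 𝕋 → 𝕋 → ℂ} (hG : Cls D G) : Cls D (fun t u => - G t u) := by
  obtain ⟨g, hg, hG⟩ := hG
  refine ⟨fun k u => - g k u, fun k => (hg k).neg, fun t u => ?_⟩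
  show - G t u = ∑ k ∈ Finset.Icc (-(D : ℤ)) D, (fourier k t : ℂ) * (- g k u)
  rw [hG, ← Finset.sum_neg_distrib]
  refine Finset.sum_congr rfl fun p _ => ?_
  ring

theorem Cls.sub {D : ℕ} {G G' : 𝕋 → 𝕋 → ℂ} (hG : Cls D G) (hG' : Cls D G') :
    Cls D (fun t u => G t u - G' t u) :=
  (hG.add hG'.neg).congr fun t u => by ring

theorem Cls.const (c : ℂ) : Cls 0 (fun _ _ => c) := by
  refine ⟨fun _ _ => c, fun _ => continuous_const, fun t u => ?_⟩
  simp

/-- the exactness: on the line `u = H t` -/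
theorem Cls.line {D H : ℕ} (hH : D < H) {G : 𝕋 → 𝕋 → ℂ} (hG : Cls D G) :
    ∫ t, G t (H • t) ∂mT = ∫ t, ∫ u, G t u ∂mT ∂mT := by
  obtain ⟨g, hg, hG⟩ := hG
  have hc : ∀ k : ℤ, Continuous fun t : 𝕋 => (fourier k t : ℂ) * g k (H • t) := fun k =>
    (fourier k).continuous.mul ((hg k).comp (continuous_nsmul H))
  have h0 : (0 : ℤ) ∈ Finset.Icc (-(D : ℤ)) D := by
    rw [Finset.mem_Icc]; omega
  have hL : ∫ t, G t (H • t) ∂mT = ∫ u, g 0 u ∂mT := by
    simp_rw [hG]
    rw [integral_finsetSum _ fun k _ => tr_int (hc k)]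
    rw [Finset.sum_eq_single_of_mem (0 : ℤ) h0]
    · simp only [fourier_zero, one_mul]
      have hmp := measurePreserving_nsmul H (by omega)
      conv_rhs => rw [← hmp.map_eq]
      rw [integral_map hmp.aemeasurable (hg 0).aestronglyMeasurable]
    · intro k hk hk0
      apply integral_fourier_dil H (by omega)
      intro hd
      rw [Finset.mem_Icc] at hk
      have h1 := Int.le_of_dvd (abs_pos.2 hk0) ((dvd_abs _ _).2 hd)
      rcases abs_cases k with h | h <;> omega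
  have hR : ∀ t : 𝕋, ∫ u, G t u ∂mT = ∑ k ∈ Finset.Icc (-(D : ℤ)) D,
      fourier k t * ∫ u, g k u ∂mT := by
    intro t
    simp_rw [hG]
    rw [integral_finsetSum _ fun k _ => (tr_int (hg k)).const_mul _]
    refine Finset.sum_congr rfl fun k _ => ?_
    rw [integral_const_mul]
  rw [hL]
  simp_rw [hR]
  rw [integral_finsetSum _ fun k _ => (tr_int (fourier k).continuous).mul_const _]
  rw [Finset.sum_eq_single_of_mem (0 : ℤ) h0]
  · simp
  · intro k hk hk0
    rw [integral_mul_const]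
    have := integral_fourier_dil H (by omega) (fun _ => 1) k (by
      intro hd
      rw [Finset.mem_Icc] at hk
      have h1 := Int.le_of_dvd (abs_pos.2 hk0) ((dvd_abs _ _).2 hd)
      rcases abs_cases k with h | h <;> omega)
    simp only [mul_one] at this
    rw [this, zero_mul]

end P130
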