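import Vale.Agent.Lib.P130.Rank.TrA

/-!
# P130 rank one: the transfer lemma, smoothing in the first variable
-/

open MeasureTheory Filter Topology
open scoped ENNReal ComplexConjugate

namespace P130

/-! ### a smooth substitute of the truncation to the unit disc -/

/-- `2 z / (1 + |z|^2)` -/
noncomputable def phi (z : ℂ) : ℂ := ((2 / (1 + ‖z‖ ^ 2) : ℝ) : ℂ) * z

theorem continuous_phi : Continuous phi := by
  unfold phi
  refine Continuous.mul (Complex.continuous_ofReal.comp ?_) continuous_id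
  refine continuous_const.div (by fun_prop) fun z => ?_
  positivity

theorem norm_phi (z : ℂ) : ‖phi z‖ = 2 * ‖z‖ / (1 + ‖z‖ ^ 2) := by
  unfold phi
  rw [norm_mul, Complex.norm_real, Real.norm_of_nonneg (by positivity)]
  ring

theorem norm_phi_le_one (z : ℂ) : ‖phi z‖ ≤ 1 := by
  rw [norm_phi, div_le_one (by positivity)]
  nlinarith [sq_nonneg (‖z‖ - 1)]

theorem norm_sub_phi_sq (z : ℂ) : ‖z - phi z‖ ^ 2 ≤ |‖z‖ ^ 2 - 1| := by
  have h1 : z - phi z = (((‖z‖ ^ 2 - 1) / (1 + ‖z‖ ^ 2) : ℝ) : ℂ) * z := by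
    unfold phi
    have h2 : ((1 : ℝ) : ℂ) - ((2 / (1 + ‖z‖ ^ 2) : ℝ) : ℂ) =
        (((‖z‖ ^ 2 - 1) / (1 + ‖z‖ ^ 2) : ℝ) : ℂ) := by
      rw [← Complex.ofReal_sub]
      congr 1
      field_simp
      ring
    rw [← h2]
    push_cast
    ring
  rw [h1, norm_mul, Complex.norm_real, Real.norm_eq_abs, mul_pow, sq_abs, div_pow]
  have hp : 0 < 1 + ‖z‖ ^ 2 := by positivity
  have h3 : (‖z‖ ^ 2 - 1) ^ 2 = |‖z‖ ^ 2 - 1| * |‖z‖ ^ 2 - 1| := by
    rw [← sq, sq_abs]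
  rw [h3]
  have h4 : |‖z‖ ^ 2 - 1| ≤ 1 + ‖z‖ ^ 2 := by
    rw [abs_le]
    constructor <;> nlinarith [sq_nonneg ‖z‖]
  have h5 : |‖z‖ ^ 2 - 1| / (1 + ‖z‖ ^ 2) ≤ 1 := (div_le_one hp).2 h4
  have h6 : ‖z‖ ^ 2 / (1 + ‖z‖ ^ 2) ≤ 1 := (div_le_one hp).2 (by linarith)
  calc |‖z‖ ^ 2 - 1| * |‖z‖ ^ 2 - 1| / (1 + ‖z‖ ^ 2) ^ 2 * ‖z‖ ^ 2
      = |‖z‖ ^ 2 - 1| * ((|‖z‖ ^ 2 - 1| / (1 + ‖z‖ ^ 2)) * (‖z‖ ^ 2 / (1 + ‖z‖ ^ 2))) := by
        field_simp
    _ ≤ |‖z‖ ^ 2 - 1| * (1 * 1) := by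
        gcongr
    _ = |‖z‖ ^ 2 - 1| := by ring

theorem norm_phi_sub_le (z w : ℂ) : ‖phi z - phi w‖ ≤ 2 * ‖z - w‖ := by
  have hz : 0 < 1 + ‖z‖ ^ 2 := by positivity
  have hw : 0 < 1 + ‖w‖ ^ 2 := by positivity
  have hzc : ((1 + ‖z‖ ^ 2 : ℝ) : ℂ) = 1 + z * conj z := by
    rw [Complex.mul_conj, Complex.normSq_eq_norm_sq]; push_cast; rfl
  have hwc : ((1 + ‖w‖ ^ 2 : ℝ) : ℂ) = 1 + w * conj w := by
    rw [Complex.mul_conj, Complex.normSq_eq_norm_sq]; push_cast; rfl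
  have hz0 : (1 + z * conj z : ℂ) ≠ 0 := by
    rw [← hzc]; exact_mod_cast hz.ne'
  have hw0 : (1 + w * conj w : ℂ) ≠ 0 := by
    rw [← hwc]; exact_mod_cast hw.ne'
  have h1 : phi z - phi w =
      2 * ((z - w) + z * w * (conj w - conj z)) / ((1 + z * conj z) * (1 + w * conj w)) := by
    unfold phi
    rw [Complex.ofReal_div, Complex.ofReal_div, hzc, hwc, eq_div_iff (mul_ne_zero hz0 hw0)]
    push_cast
    field_simp
    ring
  rw [h1, norm_div, norm_mul, norm_mul, ← hzc, ← hwc, Complex.norm_real, Complex.norm_real,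
    Real.norm_of_nonneg hz.le, Real.norm_of_nonneg hw.le, div_le_iff₀ (mul_pos hz hw)]
  have h2 : ‖(z - w) + z * w * (conj w - conj z)‖ ≤ ‖z - w‖ * (1 + ‖z‖ * ‖w‖) := by
    refine (norm_add_le _ _).trans ?_
    rw [norm_mul, norm_mul, ← map_sub, RCLike.norm_conj, norm_sub_rev w z]
    linarith [mul_comm (‖z‖ * ‖w‖) ‖z - w‖]
  have h3 : 1 + ‖z‖ * ‖w‖ ≤ (1 + ‖z‖ ^ 2) * (1 + ‖w‖ ^ 2) := by
    nlinarith [sq_nonneg (‖z‖ - ‖w‖), sq_nonneg (‖z‖ * ‖w‖), sq_nonneg ‖z‖, sq_nonneg ‖w‖]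
  have h4 : ‖(2 : ℂ)‖ = 2 := by simp
  rw [h4]
  calc 2 * ‖(z - w) + z * w * (conj w - conj z)‖ ≤ 2 * (‖z - w‖ * (1 + ‖z‖ * ‖w‖)) := by gcongr
    _ ≤ 2 * (‖z - w‖ * ((1 + ‖z‖ ^ 2) * (1 + ‖w‖ ^ 2))) := by gcongr
    _ = _ := by ring

/-! ### the kernel -/

/-- the Fejer kernel -/
noncomputable def FK (N : ℕ) (v : 𝕋) : ℝ := ‖PT N (fun _ => 1) v‖ ^ 2 / N

theorem FK_nonneg (N : ℕ) (v : 𝕋) : 0 ≤ FK N v := by unfold FK; positivity

theorem continuous_PT1 (N : ℕ) : Continuous (PT N (fun _ => 1)) := by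
  unfold PT
  exact continuous_finsetSum _ fun j _ => continuous_const.mul (fourier (j : ℤ)).continuous

theorem continuous_FK (N : ℕ) : Continuous (FK N) := by
  unfold FK
  exact ((continuous_PT1 N).norm.pow 2).div_const _

theorem integral_FK (N : ℕ) (hN : 0 < N) : ∫ v, FK N v ∂mT = 1 := by
  unfold FK
  rw [integral_div, integral_PT_sq, div_self (by positivity)]

theorem integral_FK_shift (N : ℕ) (hN : 0 < N) (t : 𝕋) : ∫ s, FK N (t - s) ∂mT = 1 := by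
  rw [integral_sub_left_eq_self (FK N) mT t, integral_FK N hN]

theorem tele_PT (N : ℕ) (v : 𝕋) :
    (1 - fourier 1 v) * PT N (fun _ => 1) v = 1 - fourier (N : ℤ) v := by
  unfold PT
  induction N with
  | zero => simp
  | succ n ih =>
    rw [Finset.sum_range_succ, mul_add, ih]
    have h1 : (fourier ((n + 1 : ℕ) : ℤ) v : ℂ) = fourier (n : ℤ) v * fourier 1 v := by
      rw [← fourier_add]; push_cast; rfl
    rw [h1]
    simp
    ring

theorem integral_norm_one_sub_fourier (N : ℕ) (hN : 0 < N) :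
    ∫ v, ‖1 - (fourier (N : ℤ) v : ℂ)‖ ^ 2 ∂mT = 2 := by
  have h0 : ∀ v : 𝕋, ((‖1 - (fourier (N : ℤ) v : ℂ)‖ ^ 2 : ℝ) : ℂ) =
      2 - fourier (N : ℤ) v - fourier (-(N : ℤ)) v := by
    intro v
    rw [← Complex.normSq_eq_norm_sq, ← Complex.mul_conj, map_sub, map_one, ← fourier_neg]
    have h1 : (fourier (N : ℤ) v : ℂ) * fourier (-(N : ℤ)) v = 1 := by
      rw [← fourier_add]; simp
    linear_combination h1
  have hz : ∀ k : ℤ, k ≠ 0 → ∫ v, (fourier k v : ℂ) ∂mT = 0 := by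
    intro k hk
    have := integral_fourier_dil (k.natAbs + 1) (by omega) (fun _ => 1) k (by
      intro hd
      rw [Int.natCast_dvd] at hd
      have h3 := Nat.le_of_dvd (Int.natAbs_pos.2 hk) hd
      omega)
    simpa using this
  have h2 : ((∫ v, ‖1 - (fourier (N : ℤ) v : ℂ)‖ ^ 2 ∂mT : ℝ) : ℂ) = ((2 : ℝ) : ℂ) := by
    rw [← integral_complex_ofReal]
    simp_rw [h0]
    rw [integral_sub, integral_sub, hz _ (by omega), hz _ (by omega)]
    · simp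
    · exact integrable_const _
    · exact tr_int (fourier _).continuous
    · exact (integrable_const _).sub (tr_int (fourier _).continuous)
    · exact tr_int (fourier _).continuous
  exact_mod_cast h2

theorem integral_FK_dist (N : ℕ) (hN : 0 < N) :
    ∫ v, FK N v * ‖1 - (fourier 1 v : ℂ)‖ ^ 2 ∂mT = 2 / N := by
  rw [← integral_norm_one_sub_fourier N hN, ← integral_div]
  refine integral_congr_ae (Eventually.of_forall fun v => ?_)
  show FK N v * ‖1 - (fourier 1 v : ℂ)‖ ^ 2 = ‖1 - (fourier (N : ℤ) v : ℂ)‖ ^ 2 / N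
  rw [← tele_PT, norm_mul, mul_pow]
  unfold FK
  ring

end P130
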