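import Vale.Agent.Lib.P130.Rank.TrB

/-!
# P130 rank one: the transfer lemma, smoothing in the first variable (continued)
-/

open MeasureTheory Filter Topology
open scoped ENNReal ComplexConjugate

namespace P130

/-- smoothing in the first variable -/
noncomputable def SM (N : ℕ) (G : 𝕋 → 𝕋 → ℂ) (t u : 𝕋) : ℂ :=
  ∫ s, (FK N (t - s) : ℂ) * G s u ∂mT

theorem FK_expand (N : ℕ) (v : 𝕋) : (FK N v : ℂ) =
    ∑ p ∈ Finset.range N ×ˢ Finset.range N, (1 / (N : ℂ)) * fourier ((p.1 : ℤ) - p.2) v := by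
  unfold FK
  rw [Complex.ofReal_div, Complex.ofReal_pow]
  have h0 : ((‖PT N (fun _ => 1) v‖ : ℂ)) ^ 2 =
      PT N (fun _ => 1) v * (starRingEnd ℂ) (PT N (fun _ => 1) v) := by
    rw [Complex.mul_conj, Complex.normSq_eq_norm_sq]; push_cast; rfl
  rw [h0, PT, map_sum, Finset.sum_mul_sum, ← Finset.sum_product', Finset.sum_div]
  refine Finset.sum_congr rfl fun p _ => ?_
  rw [map_mul, ← fourier_neg, sub_eq_add_neg, fourier_add]
  simp
  ring

theorem SM_cls (N : ℕ) {G : 𝕋 → 𝕋 → ℂ} (hG : Continuous fun p : 𝕋 × 𝕋 => G p.1 p.2) :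
    Cls N (SM N G) := by
  have hc : ∀ k : ℤ, Continuous fun u : 𝕋 => ∫ s, (fourier (-k) s : ℂ) * G s u ∂mT := by
    intro k
    have h1 := continuous_parametric_integral_of_continuous (μ := mT) (s := Set.univ)
      (f := fun u s : 𝕋 => (fourier (-k) s : ℂ) * G s u)
      (((fourier (-k)).continuous.comp continuous_snd).mul
        (hG.comp (continuous_snd.prodMk continuous_fst))) isCompact_univ
    simpa using h1
  have h1 := Cls.of_sum (Finset.range N ×ˢ Finset.range N) (fun p => (p.1 : ℤ) - p.2)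
    (fun p u => (1 / (N : ℂ)) * ∫ s, (fourier (-((p.1 : ℤ) - p.2)) s : ℂ) * G s u ∂mT)
    (fun p _ => continuous_const.mul (hc _)) N (by
      intro p hp
      rw [Finset.mem_product, Finset.mem_range, Finset.mem_range] at hp
      rw [Finset.mem_Icc]
      omega)
  refine h1.congr fun t u => ?_
  have hu : Continuous fun s : 𝕋 => G s u := hG.comp (Continuous.prodMk_left u)
  unfold SM
  have h2 : ∀ s : 𝕋, (FK N (t - s) : ℂ) * G s u =
      ∑ p ∈ Finset.range N ×ˢ Finset.range N, (fourier ((p.1 : ℤ) - p.2) t : ℂ) *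
        ((1 / (N : ℂ)) * ((fourier (-((p.1 : ℤ) - p.2)) s : ℂ) * G s u)) := by
    intro s
    rw [FK_expand, Finset.sum_mul]
    refine Finset.sum_congr rfl fun p _ => ?_
    have h3 : (fourier ((p.1 : ℤ) - p.2) (t - s) : ℂ) =
        fourier ((p.1 : ℤ) - p.2) t * fourier (-((p.1 : ℤ) - p.2)) s := by
      rw [fourier_apply, fourier_apply, fourier_apply, smul_sub, neg_smul, sub_eq_add_neg,
        AddCircle.toCircle_add, Circle.coe_mul]
    rw [h3]
    ring
  simp_rw [h2]
  rw [integral_finsetSum]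
  · refine Finset.sum_congr rfl fun p _ => ?_
    rw [integral_const_mul, integral_const_mul]
  · intro p _
    exact ((tr_int ((fourier _).continuous.mul hu)).const_mul _).const_mul _

theorem SM_norm_le (N : ℕ) (hN : 0 < N) {G : 𝕋 → 𝕋 → ℂ} (hG1 : ∀ t u, ‖G t u‖ ≤ 1)
    (t u : 𝕋) : ‖SM N G t u‖ ≤ 1 := by
  unfold SM
  refine (norm_integral_le_integral_norm _).trans ?_
  have hF : Continuous fun s : 𝕋 => FK N (t - s) :=
    (continuous_FK N).comp (continuous_const.sub continuous_id)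
  refine le_trans ?_ (le_of_eq (integral_FK_shift N hN t))
  refine integral_mono_of_nonneg (Eventually.of_forall fun s => norm_nonneg _) (tr_intR hF)
    (Eventually.of_forall fun s => ?_)
  show ‖(FK N (t - s) : ℂ) * G s u‖ ≤ FK N (t - s)
  rw [norm_mul, Complex.norm_real, Real.norm_of_nonneg (FK_nonneg _ _)]
  exact mul_le_of_le_one_right (FK_nonneg _ _) (hG1 s u)

/-- Jensen for the kernel -/
theorem FK_jensen (N : ℕ) (hN : 0 < N) (t : 𝕋) (g : 𝕋 → ℝ) (hg : Continuous g) :
    (∫ s, FK N (t - s) * g s ∂mT) ^ 2 ≤ ∫ s, FK N (t - s) * g s ^ 2 ∂mT := by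
  have hF : Continuous fun s : 𝕋 => FK N (t - s) :=
    (continuous_FK N).comp (continuous_const.sub continuous_id)
  set a : ℝ := ∫ s, FK N (t - s) * g s ∂mT with ha
  have h0 : 0 ≤ ∫ s, FK N (t - s) * (g s - a) ^ 2 ∂mT :=
    integral_nonneg fun s => mul_nonneg (FK_nonneg _ _) (sq_nonneg _)
  have h1 : ∫ s, FK N (t - s) * (g s - a) ^ 2 ∂mT =
      ∫ s, FK N (t - s) * g s ^ 2 ∂mT - 2 * a * (∫ s, FK N (t - s) * g s ∂mT) +
        a ^ 2 * ∫ s, FK N (t - s) ∂mT := by
    have e1 : ∀ s, FK N (t - s) * (g s - a) ^ 2 = (FK N (t - s) * g s ^ 2 -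
        (2 * a) * (FK N (t - s) * g s)) + a ^ 2 * FK N (t - s) := fun s => by ring
    simp_rw [e1]
    rw [integral_add, integral_sub, integral_const_mul, integral_const_mul]
    · exact tr_intR (hF.mul (hg.pow 2))
    · exact (tr_intR (hF.mul hg)).const_mul _
    · exact ((tr_intR (hF.mul (hg.pow 2))).sub ((tr_intR (hF.mul hg)).const_mul _))
    · exact (tr_intR hF).const_mul _
  rw [h1, integral_FK_shift N hN t, ← ha] at h0
  nlinarith

theorem SM_sub_eq (N : ℕ) (hN : 0 < N) {G : 𝕋 → 𝕋 → ℂ}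
    (hG : Continuous fun p : 𝕋 × 𝕋 => G p.1 p.2) (t u : 𝕋) :
    SM N G t u - G t u = ∫ s, (FK N (t - s) : ℂ) * (G s u - G t u) ∂mT := by
  have hu : Continuous fun s : 𝕋 => G s u := hG.comp (Continuous.prodMk_left u)
  have hF : Continuous fun s : 𝕋 => (FK N (t - s) : ℂ) :=
    Complex.continuous_ofReal.comp ((continuous_FK N).comp (continuous_const.sub continuous_id))
  have h1 : ∫ s, (FK N (t - s) : ℂ) ∂mT = 1 := by
    rw [integral_complex_ofReal, integral_FK_shift N hN t]; rfl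
  have h2 : G t u = ∫ s, (FK N (t - s) : ℂ) * G t u ∂mT := by
    rw [integral_mul_const, h1, one_mul]
  conv_lhs => rw [h2]
  unfold SM
  have i1 : Integrable (fun s : 𝕋 => (FK N (t - s) : ℂ) * G s u) mT := tr_int (hF.mul hu)
  have i2 : Integrable (fun s : 𝕋 => (FK N (t - s) : ℂ) * G t u) mT :=
    tr_int (hF.mul continuous_const)
  rw [← integral_sub i1 i2]
  refine integral_congr_ae (Eventually.of_forall fun s => ?_)
  simp only
  ring

theorem SM_L2 (N : ℕ) (hN : 0 < N) {G : 𝕋 → 𝕋 → ℂ}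
    (hG : Continuous fun p : 𝕋 × 𝕋 => G p.1 p.2) (L : ℝ)
    (hL : ∀ s t : 𝕋, ∫ u, ‖G s u - G t u‖ ^ 2 ∂mT ≤ L * ‖1 - (fourier 1 (t - s) : ℂ)‖ ^ 2)
    (t : 𝕋) : ∫ u, ‖SM N G t u - G t u‖ ^ 2 ∂mT ≤ 2 * L / N := by
  have hF : Continuous fun s : 𝕋 => FK N (t - s) :=
    (continuous_FK N).comp (continuous_const.sub continuous_id)
  have hpt : ∀ u : 𝕋, ‖SM N G t u - G t u‖ ^ 2 ≤
      ∫ s, FK N (t - s) * ‖G s u - G t u‖ ^ 2 ∂mT := by
    intro u
    have hu : Continuous fun s : 𝕋 => G s u := hG.comp (Continuous.prodMk_left u)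
    rw [SM_sub_eq N hN hG]
    refine le_trans ?_ (FK_jensen N hN t (fun s => ‖G s u - G t u‖) (hu.sub continuous_const).norm)
    refine pow_le_pow_left₀ (norm_nonneg _) ?_ 2
    refine (norm_integral_le_integral_norm _).trans (le_of_eq ?_)
    refine integral_congr_ae (Eventually.of_forall fun s => ?_)
    simp only
    rw [norm_mul, Complex.norm_real, Real.norm_of_nonneg (FK_nonneg _ _)]
  have hjc : Continuous fun p : 𝕋 × 𝕋 => FK N (t - p.2) * ‖G p.2 p.1 - G t p.1‖ ^ 2 := by
    refine (hF.comp continuous_snd).mul (Continuous.pow (Continuous.norm ?_) 2)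
    refine Continuous.sub (hG.comp (continuous_snd.prodMk continuous_fst)) ?_
    exact hG.comp (continuous_const.prodMk continuous_fst)
  have hji : Integrable (fun p : 𝕋 × 𝕋 => FK N (t - p.2) * ‖G p.2 p.1 - G t p.1‖ ^ 2)
      (mT.prod mT) :=
    hjc.integrable_of_hasCompactSupport (HasCompactSupport.of_compactSpace _)
  have hSc : Continuous fun u : 𝕋 => SM N G t u := by
    obtain ⟨g, hg, h⟩ := SM_cls N hG
    have : (fun u : 𝕋 => SM N G t u) = fun u => ∑ k ∈ Finset.Icc (-(N : ℤ)) N,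
        fourier k t * g k u := by
      funext u; exact h t u
    rw [this]
    exact continuous_finsetSum _ fun k _ => continuous_const.mul (hg k)
  calc ∫ u, ‖SM N G t u - G t u‖ ^ 2 ∂mT
      ≤ ∫ u, ∫ s, FK N (t - s) * ‖G s u - G t u‖ ^ 2 ∂mT ∂mT := by
        refine integral_mono (tr_intR ?_) hji.integral_prod_left hpt
        exact (hSc.sub (hG.comp (continuous_const.prodMk continuous_id))).norm.pow 2
    _ = ∫ s, ∫ u, FK N (t - s) * ‖G s u - G t u‖ ^ 2 ∂mT ∂mT :=
        integral_integral_swap hji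
    _ = ∫ s, FK N (t - s) * ∫ u, ‖G s u - G t u‖ ^ 2 ∂mT ∂mT := by
        refine integral_congr_ae (Eventually.of_forall fun s => ?_)
        simp only
        rw [integral_const_mul]
    _ ≤ ∫ s, FK N (t - s) * (L * ‖1 - (fourier 1 (t - s) : ℂ)‖ ^ 2) ∂mT := by
        refine integral_mono_of_nonneg (Eventually.of_forall fun s => ?_) (tr_intR ?_)
          (Eventually.of_forall fun s => ?_)
        · exact mul_nonneg (FK_nonneg _ _) (integral_nonneg fun u => sq_nonneg _)
        · exact hF.mul (continuous_const.mul ((continuous_const.sub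
            ((fourier 1).continuous.comp (continuous_const.sub continuous_id))).norm.pow 2))
        · exact mul_le_mul_of_nonneg_left (hL s t) (FK_nonneg _ _)
    _ = L * ∫ s, (fun v => FK N v * ‖1 - (fourier 1 v : ℂ)‖ ^ 2) (t - s) ∂mT := by
        rw [← integral_const_mul]
        refine integral_congr_ae (Eventually.of_forall fun s => ?_)
        simp only
        ring
    _ = 2 * L / N := by
        rw [integral_sub_left_eq_self (fun v => FK N v * ‖1 - (fourier 1 v : ℂ)‖ ^ 2) mT t,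
          integral_FK_dist N hN]
        ring

end P130
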