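import Vale.Agent.Lib.P130.Rank.TrC

/-!
# P130 rank one: the transfer lemma

If `Q(t,u) = m^{-1/2} ∑_j e(s_j t + j u)` (`s_j ≤ K`) is flat in mean over `u` for every `t`
away from `0`, then `|Q(t, H t)|^2` is close to `1` in mean with respect to every weight
`R(t) |1 - e(t)|^2`, `R` a nonnegative trigonometric polynomial of degree `h`, `h + D < H`,
where `D` depends only on `K` and the precision.
-/

open MeasureTheory Filter Topology
open scoped ENNReal ComplexConjugate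

namespace P130

/-- the two variable polynomial -/
noncomputable def QQ (m : ℕ) (s : ℕ → ℕ) (t u : 𝕋) : ℂ :=
  ((1 / Real.sqrt m : ℝ) : ℂ) *
    ∑ j ∈ Finset.range m, (fourier (s j : ℤ) t : ℂ) * fourier (j : ℤ) u

theorem QQ_line (m : ℕ) (s : ℕ → ℕ) (H : ℕ) (t : 𝕋) : QQ m s t (H • t) =
    ((1 / Real.sqrt m : ℝ) : ℂ) *
      ∑ j ∈ Finset.range m, (fourier ((j * H + s j : ℕ) : ℤ) t : ℂ) := by
  unfold QQ
  congr 1
  refine Finset.sum_congr rfl fun j _ => ?_
  have h1 : (fourier (j : ℤ) (H • t) : ℂ) = fourier ((j * H : ℕ) : ℤ) t := by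
    rw [fourier_apply, fourier_apply]
    congr 2
    rw [← natCast_zsmul, smul_smul]
    push_cast
    rfl
  rw [h1, ← fourier_add]
  congr 2
  push_cast
  ring

theorem QQ_cls (m : ℕ) (s : ℕ → ℕ) (K : ℕ) (hs : ∀ j < m, s j ≤ K) : Cls K (QQ m s) := by
  have h1 := Cls.of_sum (Finset.range m) (fun j => (s j : ℤ))
    (fun j u => ((1 / Real.sqrt m : ℝ) : ℂ) * fourier (j : ℤ) u)
    (fun j _ => continuous_const.mul (fourier _).continuous) K (by
      intro j hj
      rw [Finset.mem_range] at hj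
      have := hs j hj
      rw [Finset.mem_Icc]
      omega)
  refine h1.congr fun t u => ?_
  unfold QQ
  rw [Finset.mul_sum]
  refine Finset.sum_congr rfl fun j _ => ?_
  ring

theorem QQ_cont (m : ℕ) (s : ℕ → ℕ) : Continuous fun p : 𝕋 × 𝕋 => QQ m s p.1 p.2 := by
  unfold QQ
  refine continuous_const.mul (continuous_finsetSum _ fun j _ => ?_)
  exact ((fourier _).continuous.comp continuous_fst).mul ((fourier _).continuous.comp
    continuous_snd)

theorem tr_int_ne (k : ℤ) (hk : k ≠ 0) : ∫ v, (fourier k v : ℂ) ∂mT = 0 := by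
  have := integral_fourier_dil (k.natAbs + 1) (by omega) (fun _ => 1) k (by
    intro hd
    rw [Int.natCast_dvd] at hd
    have h3 := Nat.le_of_dvd (Int.natAbs_pos.2 hk) hd
    omega)
  simpa using this

/-- orthogonality in `u` -/
theorem tr_orth (m : ℕ) (a : ℕ → ℂ) :
    ∫ u, ‖∑ j ∈ Finset.range m, a j * (fourier (j : ℤ) u : ℂ)‖ ^ 2 ∂mT =
      ∑ j ∈ Finset.range m, ‖a j‖ ^ 2 := by
  have hpt : ∀ u : 𝕋, ((‖∑ j ∈ Finset.range m, a j * (fourier (j : ℤ) u : ℂ)‖ ^ 2 : ℝ) : ℂ)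
      = ∑ j ∈ Finset.range m, ∑ l ∈ Finset.range m,
        (a j * (starRingEnd ℂ) (a l)) * fourier ((j : ℤ) - (l : ℤ)) u := by
    intro t
    rw [← Complex.normSq_eq_norm_sq, ← Complex.mul_conj, map_sum, Finset.sum_mul_sum]
    refine Finset.sum_congr rfl fun j _ => Finset.sum_congr rfl fun l _ => ?_
    rw [map_mul, ← fourier_neg, sub_eq_add_neg, fourier_add]
    ring
  have hreal : ((∫ u, ‖∑ j ∈ Finset.range m, a j * (fourier (j : ℤ) u : ℂ)‖ ^ 2 ∂mT : ℝ) : ℂ) =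
      ((∑ j ∈ Finset.range m, ‖a j‖ ^ 2 : ℝ) : ℂ) := by
    rw [← integral_complex_ofReal]
    simp_rw [hpt]
    rw [integral_finsetSum]
    · rw [Complex.ofReal_sum]
      refine Finset.sum_congr rfl fun j hj => ?_
      rw [integral_finsetSum]
      · rw [Finset.sum_eq_single_of_mem j hj]
        · rw [sub_self, Complex.mul_conj, Complex.normSq_eq_norm_sq]
          simp
        · intro l _ hl
          rw [integral_const_mul, tr_int_ne _ (by
            intro h0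
            apply hl
            omega), mul_zero]
      · intro l _
        exact tr_int (by fun_prop)
    · intro j _
      exact tr_int (by fun_prop)
  exact_mod_cast hreal

theorem QQ_eq (m : ℕ) (s : ℕ → ℕ) (t u : 𝕋) : QQ m s t u =
    ∑ j ∈ Finset.range m, (((1 / Real.sqrt m : ℝ) : ℂ) * (fourier (s j : ℤ) t : ℂ)) *
      (fourier (j : ℤ) u : ℂ) := by
  unfold QQ
  rw [Finset.mul_sum]
  refine Finset.sum_congr rfl fun j _ => ?_
  ring

theorem norm_four (k : ℤ) (t : 𝕋) : ‖(fourier k t : ℂ)‖ = 1 := by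
  rw [fourier_apply]; exact Circle.norm_coe _

theorem QQ_sq (m : ℕ) (hm : 0 < m) (s : ℕ → ℕ) (t : 𝕋) : ∫ u, ‖QQ m s t u‖ ^ 2 ∂mT = 1 := by
  simp_rw [QQ_eq]
  rw [tr_orth m (fun j => ((1 / Real.sqrt m : ℝ) : ℂ) * (fourier (s j : ℤ) t : ℂ))]
  have hm' : (0 : ℝ) < m := by exact_mod_cast hm
  have h1 : ∀ j ∈ Finset.range m,
      ‖((1 / Real.sqrt m : ℝ) : ℂ) * (fourier (s j : ℤ) t : ℂ)‖ ^ 2 = 1 / m := by
    intro j _
    rw [norm_mul, norm_four, mul_one, Complex.norm_real, Real.norm_of_nonneg (by positivity),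
      div_pow, Real.sq_sqrt hm'.le, one_pow]
  rw [Finset.sum_congr rfl h1, Finset.sum_const, Finset.card_range, nsmul_eq_mul,
    mul_one_div_cancel hm'.ne']

theorem norm_four_sub (k : ℕ) (s t : 𝕋) :
    ‖(fourier (k : ℤ) s : ℂ) - fourier (k : ℤ) t‖ ≤ k * ‖1 - (fourier 1 (t - s) : ℂ)‖ := by
  have h0 : (fourier (k : ℤ) t : ℂ) = fourier (k : ℤ) s * fourier (k : ℤ) (t - s) := by
    rw [fourier_apply, fourier_apply, fourier_apply, smul_sub, ← Circle.coe_mul,
      ← AddCircle.toCircle_add]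
    congr 2
    abel
  have h1 : (fourier (k : ℤ) s : ℂ) - fourier (k : ℤ) t =
      fourier (k : ℤ) s * (1 - fourier (k : ℤ) (t - s)) := by
    rw [h0]; ring
  rw [h1, norm_mul, norm_four, one_mul, ← tele_PT, norm_mul, mul_comm]
  gcongr
  unfold PT
  refine (norm_sum_le _ _).trans ?_
  refine (Finset.sum_le_sum (g := fun _ => (1 : ℝ)) fun j _ => ?_).trans (by simp)
  rw [norm_mul, norm_four]
  simp

theorem QQ_lip (m : ℕ) (hm : 0 < m) (s : ℕ → ℕ) (K : ℕ) (hs : ∀ j < m, s j ≤ K) (a t : 𝕋) :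
    ∫ u, ‖QQ m s a u - QQ m s t u‖ ^ 2 ∂mT ≤ K ^ 2 * ‖1 - (fourier 1 (t - a) : ℂ)‖ ^ 2 := by
  have h0 : ∀ u, QQ m s a u - QQ m s t u =
      ∑ j ∈ Finset.range m, (((1 / Real.sqrt m : ℝ) : ℂ) * ((fourier (s j : ℤ) a : ℂ) -
        fourier (s j : ℤ) t)) * (fourier (j : ℤ) u : ℂ) := by
    intro u
    rw [QQ_eq, QQ_eq, ← Finset.sum_sub_distrib]
    refine Finset.sum_congr rfl fun j _ => ?_
    ring
  simp_rw [h0]
  rw [tr_orth m (fun j => ((1 / Real.sqrt m : ℝ) : ℂ) * ((fourier (s j : ℤ) a : ℂ) -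
        fourier (s j : ℤ) t))]
  have hm' : (0 : ℝ) < m := by exact_mod_cast hm
  have h1 : ∀ j ∈ Finset.range m,
      ‖((1 / Real.sqrt m : ℝ) : ℂ) * ((fourier (s j : ℤ) a : ℂ) - fourier (s j : ℤ) t)‖ ^ 2 ≤
        1 / m * (K * ‖1 - (fourier 1 (t - a) : ℂ)‖) ^ 2 := by
    intro j hj
    rw [norm_mul, mul_pow, Complex.norm_real, Real.norm_of_nonneg (by positivity),
      div_pow, Real.sq_sqrt hm'.le, one_pow]
    gcongr
    refine (norm_four_sub _ _ _).trans ?_
    gcongr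
    exact_mod_cast hs j (Finset.mem_range.1 hj)
  refine (Finset.sum_le_sum h1).trans (le_of_eq ?_)
  rw [Finset.sum_const, Finset.card_range, nsmul_eq_mul, ← mul_assoc,
    mul_one_div_cancel hm'.ne']
  ring

end P130
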