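import Vale.Agent.Lib.P130.Rank.Transfer

/-!
# P130 rank one: the transfer lemma, final statement
-/

open MeasureTheory Filter Topology
open scoped ENNReal ComplexConjugate

namespace P130

theorem tr_pt (z w : ℂ) (hw : ‖w‖ ≤ 1) (η : ℝ) (hη : 0 < η) :
    |‖z‖ ^ 2 - ‖w‖ ^ 2| ≤ (1 + 1 / η) * ‖z - w‖ ^ 2 + η := by
  have h1 : |‖z‖ - ‖w‖| ≤ ‖z - w‖ := abs_norm_sub_norm_le z w
  have h2 : ‖z‖ ≤ ‖z - w‖ + ‖w‖ := by
    have := norm_add_le (z - w) w
    rwa [sub_add_cancel] at this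
  have h3 : |‖z‖ ^ 2 - ‖w‖ ^ 2| = |‖z‖ - ‖w‖| * (‖z‖ + ‖w‖) := by
    rw [show ‖z‖ ^ 2 - ‖w‖ ^ 2 = (‖z‖ - ‖w‖) * (‖z‖ + ‖w‖) by ring, abs_mul,
      abs_of_nonneg (by positivity : 0 ≤ ‖z‖ + ‖w‖)]
  have h4 : |‖z‖ - ‖w‖| * (‖z‖ + ‖w‖) ≤ ‖z - w‖ * (‖z - w‖ + 2) := by
    refine mul_le_mul h1 (by linarith) (by positivity) (norm_nonneg _)
  have h5 : 2 * ‖z - w‖ ≤ 1 / η * ‖z - w‖ ^ 2 + η := by
    have h6 : 0 ≤ 1 / η * (‖z - w‖ - η) ^ 2 := by positivity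
    have h7 : 1 / η * (‖z - w‖ - η) ^ 2 = 1 / η * ‖z - w‖ ^ 2 - 2 * ‖z - w‖ + η := by
      field_simp
      ring
    linarith
  rw [h3]
  nlinarith

theorem Cls.intR {D H : ℕ} (hH : D < H) {G : 𝕋 → 𝕋 → ℝ} (hG : Cls D (fun t u => (G t u : ℂ))) :
    ∫ t, G t (H • t) ∂mT = ∫ t, ∫ u, G t u ∂mT ∂mT := by
  have h1 := Cls.line hH hG
  simp only [integral_complex_ofReal] at h1
  exact_mod_cast h1

/-- the weight -/
noncomputable def wt (R : 𝕋 → ℝ) (t : 𝕋) : ℝ := R t * ‖1 - (fourier 1 t : ℂ)‖ ^ 2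

theorem Cls.normSq {D : ℕ} {G : 𝕋 → 𝕋 → ℂ} (hG : Cls D G) :
    Cls (D + D) (fun t u => ((‖G t u‖ ^ 2 : ℝ) : ℂ)) := by
  refine (hG.mul hG.conj).congr fun t u => ?_
  show ((‖G t u‖ ^ 2 : ℝ) : ℂ) = G t u * (starRingEnd ℂ) (G t u)
  rw [Complex.mul_conj, Complex.normSq_eq_norm_sq]

theorem wt_cls (h : ℕ) (R : 𝕋 → ℝ) (c : ℤ → ℂ)
    (hR : ∀ t, (R t : ℂ) = ∑ l ∈ Finset.Icc (-(h : ℤ)) h, c l * fourier l t) :
    Cls (h + (1 + 1)) (fun t _ => (wt R t : ℂ)) := by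
  have h1 : Cls h (fun t _ => (R t : ℂ)) :=
    ⟨fun l _ => c l, fun _ => continuous_const, fun t u =>
      (hR t).trans (Finset.sum_congr rfl fun l _ => mul_comm _ _)⟩
  have h2 : Cls 1 (fun t _ => 1 - (fourier 1 t : ℂ)) := by
    have h3 : Cls 1 (fun t u : 𝕋 => ∑ i ∈ (Finset.univ : Finset (Fin 1)),
        (fourier (1 : ℤ) t : ℂ) * (fun _ : 𝕋 => (1 : ℂ)) u) :=
      Cls.of_sum Finset.univ (fun _ : Fin 1 => (1 : ℤ)) (fun _ _ => 1)
        (fun _ _ => continuous_const) 1 (by intro i _; simp)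
    refine (((Cls.const 1).mono (by omega)).sub h3).congr fun t u => ?_
    simp
  refine (h1.mul h2.normSq).congr fun t u => ?_
  show ((wt R t : ℝ) : ℂ) = (R t : ℂ) * ((‖1 - (fourier 1 t : ℂ)‖ ^ 2 : ℝ) : ℂ)
  unfold wt
  push_cast
  ring

theorem Cls.cont2 {D : ℕ} {G : 𝕋 → 𝕋 → ℂ} (hG : Cls D G) :
    Continuous fun p : 𝕋 × 𝕋 => G p.1 p.2 := by
  obtain ⟨g, hg, h⟩ := hG
  have : (fun p : 𝕋 × 𝕋 => G p.1 p.2) = fun p => ∑ k ∈ Finset.Icc (-(D : ℤ)) D,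
      fourier k p.1 * g k p.2 := by
    funext p; exact h p.1 p.2
  rw [this]
  exact continuous_finsetSum _ fun k _ =>
    ((fourier k).continuous.comp continuous_fst).mul ((hg k).comp continuous_snd)

theorem norm_one_sub_sq_le (t : 𝕋) : ‖1 - (fourier 1 t : ℂ)‖ ^ 2 ≤ 4 := by
  have h1 : ‖1 - (fourier 1 t : ℂ)‖ ≤ 2 := by
    refine (norm_sub_le _ _).trans ?_
    rw [norm_four, norm_one]
    norm_num
  nlinarith [norm_nonneg (1 - (fourier 1 t : ℂ))]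

/-- the estimate with explicit constants -/
theorem transfer_aux (K N : ℕ) (hN : 0 < N) (δ η : ℝ) (hδ : 0 < δ) (hη : 0 < η)
    (m : ℕ) (s : ℕ → ℕ) (hm : 0 < m) (hs : ∀ j < m, s j ≤ K)
    (hflat : ∀ t : 𝕋, δ ≤ ‖1 - (fourier 1 t : ℂ)‖ ^ 2 →
      ∫ u, |‖QQ m s t u‖ ^ 2 - 1| ∂mT ≤ δ)
    (h H : ℕ) (R : 𝕋 → ℝ) (c : ℤ → ℂ) (hR0 : ∀ t, 0 ≤ R t)
    (hR : ∀ t, (R t : ℂ) = ∑ l ∈ Finset.Icc (-(h : ℤ)) h, c l * fourier l t)
    (hR1 : ∫ t, R t ∂mT ≤ 1) (hH : h + 2 + 2 * (K + N) < H) :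
    ∫ t, wt R t * |‖QQ m s t (H • t)‖ ^ 2 - 1| ∂mT ≤
      2 * ((1 + 1 / η) * (8 * δ + 64 * K ^ 2 / N) + 4 * η) := by
  set Q := QQ m s with hQ
  set G : 𝕋 → 𝕋 → ℂ := fun t u => phi (Q t u) with hG
  set W := SM N G with hW
  have hQc := QQ_cont m s
  have hGc : Continuous fun p : 𝕋 × 𝕋 => G p.1 p.2 := continuous_phi.comp hQc
  have hWcls : Cls (K + N) W := (SM_cls N hGc).mono (by omega)
  have hQcls : Cls (K + N) Q := (QQ_cls m s K hs).mono (by omega)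
  have hWc := hWcls.cont2
  have hW1 : ∀ t u, ‖W t u‖ ≤ 1 := SM_norm_le N hN (fun t u => norm_phi_le_one _)
  have hwcls := wt_cls h R c hR
  have hwc : Continuous (wt R) := by
    have h1 : Continuous fun t : 𝕋 => (wt R t : ℂ) :=
      hwcls.cont2.comp (continuous_id.prodMk continuous_const : Continuous fun t : 𝕋 => (t, (0 : 𝕋)))
    have h2 := Complex.continuous_re.comp h1
    simpa [Function.comp_def] using h2
  have hRc : Continuous R := by
    have h1 : Continuous fun t : 𝕋 => (R t : ℂ) := by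
      simp_rw [hR]
      exact continuous_finsetSum _ fun l _ => continuous_const.mul (fourier l).continuous
    have h2 := Complex.continuous_re.comp h1
    simpa [Function.comp_def] using h2
  have hw0 : ∀ t, 0 ≤ wt R t := fun t => mul_nonneg (hR0 t) (sq_nonneg _)
  have hlinec : Continuous fun t : 𝕋 => (t, H • t) := continuous_id.prodMk (continuous_nsmul H)
  have hcu : ∀ t : 𝕋, Continuous fun u : 𝕋 => (t, u) := fun t =>
    continuous_const.prodMk continuous_id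
  -- exactness
  set A : ℝ := ∫ t, ∫ u, wt R t * ‖Q t u - W t u‖ ^ 2 ∂mT ∂mT with hA
  have hA' : ∫ t, wt R t * ‖Q t (H • t) - W t (H • t)‖ ^ 2 ∂mT = A := by
    refine Cls.intR (D := (h + (1 + 1)) + ((K + N) + (K + N)))
      (G := fun t u => wt R t * ‖Q t u - W t u‖ ^ 2) (by omega) ?_
    refine (hwcls.mul (hQcls.sub hWcls).normSq).congr fun t u => ?_
    push_cast
    rfl
  have hB' : ∫ t, wt R t * (1 - ‖W t (H • t)‖ ^ 2) ∂mT =
      ∫ t, ∫ u, wt R t * (1 - ‖W t u‖ ^ 2) ∂mT ∂mT := by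
    refine Cls.intR (D := (h + (1 + 1)) + ((K + N) + (K + N)))
      (G := fun t u => wt R t * (1 - ‖W t u‖ ^ 2)) (by omega) ?_
    refine (hwcls.mul (((Cls.const 1).mono (Nat.zero_le _)).sub hWcls.normSq)).congr fun t u => ?_
    push_cast
    rfl
  -- the weight has mass at most 4
  have hwm : ∫ t, wt R t ∂mT ≤ 4 := by
    have h1 : ∫ t, wt R t ∂mT ≤ ∫ t, 4 * R t ∂mT := by
      refine integral_mono (tr_intR hwc) ((tr_intR hRc).const_mul _) fun t => ?_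
      show R t * ‖1 - (fourier 1 t : ℂ)‖ ^ 2 ≤ 4 * R t
      nlinarith [norm_one_sub_sq_le t, hR0 t]
    rw [integral_const_mul] at h1
    linarith
  -- integrability on the line and in u
  have i1 : Integrable (fun t : 𝕋 => wt R t * ‖Q t (H • t) - W t (H • t)‖ ^ 2) mT :=
    tr_intR (hwc.mul (((hQc.comp hlinec).sub (hWc.comp hlinec)).norm.pow 2))
  have i2 : Integrable (fun t : 𝕋 => wt R t * (1 - ‖W t (H • t)‖ ^ 2)) mT :=
    tr_intR (hwc.mul (continuous_const.sub ((hWc.comp hlinec).norm.pow 2)))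
  have i3 : Integrable (fun t : 𝕋 => wt R t) mT := tr_intR hwc
  have hstep1 : ∫ t, wt R t * |‖Q t (H • t)‖ ^ 2 - 1| ∂mT ≤
      (1 + 1 / η) * A + η * ∫ t, wt R t ∂mT +
        ∫ t, ∫ u, wt R t * (1 - ‖W t u‖ ^ 2) ∂mT ∂mT := by
    have i4 : Integrable (fun t : 𝕋 => (1 + 1 / η) *
        (wt R t * ‖Q t (H • t) - W t (H • t)‖ ^ 2) + η * wt R t) mT :=
      (i1.const_mul _).add (i3.const_mul _)
    rw [← hA', ← hB', ← integral_const_mul, ← integral_const_mul,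
      ← integral_add (i1.const_mul _) (i3.const_mul _),
      ← integral_add i4 i2]
    refine integral_mono (tr_intR (hwc.mul (((hQc.comp hlinec).norm.pow 2).sub
      continuous_const).abs)) (((i1.const_mul _).add (i3.const_mul _)).add i2) fun t => ?_
    show wt R t * |‖Q t (H • t)‖ ^ 2 - 1| ≤ (1 + 1 / η) *
      (wt R t * ‖Q t (H • t) - W t (H • t)‖ ^ 2) + η * wt R t +
        wt R t * (1 - ‖W t (H • t)‖ ^ 2)
    have h1 := tr_pt (Q t (H • t)) (W t (H • t)) (hW1 _ _) η hη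
    have h2 : |‖Q t (H • t)‖ ^ 2 - 1| ≤ |‖Q t (H • t)‖ ^ 2 - ‖W t (H • t)‖ ^ 2| +
        (1 - ‖W t (H • t)‖ ^ 2) := by
      have h3 : 0 ≤ 1 - ‖W t (H • t)‖ ^ 2 := by
        have := hW1 t (H • t)
        nlinarith [norm_nonneg (W t (H • t))]
      have h4 := abs_sub_le (‖Q t (H • t)‖ ^ 2) (‖W t (H • t)‖ ^ 2) 1
      have h5 : |‖W t (H • t)‖ ^ 2 - 1| = 1 - ‖W t (H • t)‖ ^ 2 := by
        rw [abs_sub_comm, abs_of_nonneg h3]
      linarith
    have h6 := mul_le_mul_of_nonneg_left (h2.trans (add_le_add_left h1 _)) (hw0 t)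
    linarith
  have hdc : ∀ t : 𝕋, Continuous fun u : 𝕋 => ‖Q t u - W t u‖ ^ 2 := fun t =>
    (((hQc.comp (hcu t)).sub (hWc.comp (hcu t))).norm.pow 2)
  have hBt : ∀ t : 𝕋, ∫ u, wt R t * (1 - ‖W t u‖ ^ 2) ∂mT ≤
      (1 + 1 / η) * (∫ u, wt R t * ‖Q t u - W t u‖ ^ 2 ∂mT) + η * wt R t := by
    intro t
    rw [integral_const_mul, integral_const_mul]
    have jW : Integrable (fun u : 𝕋 => ‖W t u‖ ^ 2) mT :=
      tr_intR ((hWc.comp (hcu t)).norm.pow 2)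
    have jQ : Integrable (fun u : 𝕋 => ‖Q t u‖ ^ 2) mT :=
      tr_intR ((hQc.comp (hcu t)).norm.pow 2)
    have h1 : ∫ u, (1 - ‖W t u‖ ^ 2) ∂mT = ∫ u, (‖Q t u‖ ^ 2 - ‖W t u‖ ^ 2) ∂mT := by
      rw [integral_sub (integrable_const _) jW, integral_sub jQ jW, QQ_sq m hm s t]
      simp
    have h2 : ∫ u, (‖Q t u‖ ^ 2 - ‖W t u‖ ^ 2) ∂mT ≤
        ∫ u, ((1 + 1 / η) * ‖Q t u - W t u‖ ^ 2 + η) ∂mT := by
      refine integral_mono (jQ.sub jW) (((tr_intR (hdc t)).const_mul _).add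
        (integrable_const _)) fun u => ?_
      exact (le_abs_self _).trans (tr_pt (Q t u) (W t u) (hW1 _ _) η hη)
    rw [integral_add ((tr_intR (hdc t)).const_mul _) (integrable_const _),
      integral_const_mul, integral_const] at h2
    simp only [probReal_univ, one_smul] at h2
    rw [h1]
    have h3 := mul_le_mul_of_nonneg_left h2 (hw0 t)
    linarith
  have hAt : Continuous fun t : 𝕋 => ∫ u, wt R t * ‖Q t u - W t u‖ ^ 2 ∂mT := by
    have h1 := continuous_parametric_integral_of_continuous (μ := mT) (s := Set.univ)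
      (f := fun t u : 𝕋 => wt R t * ‖Q t u - W t u‖ ^ 2)
      (by exact (hwc.comp continuous_fst).mul ((hQc.sub hWc).norm.pow 2)) isCompact_univ
    simpa using h1
  have hBtc : Continuous fun t : 𝕋 => ∫ u, wt R t * (1 - ‖W t u‖ ^ 2) ∂mT := by
    have h1 := continuous_parametric_integral_of_continuous (μ := mT) (s := Set.univ)
      (f := fun t u : 𝕋 => wt R t * (1 - ‖W t u‖ ^ 2))
      (by exact (hwc.comp continuous_fst).mul (continuous_const.sub (hWc.norm.pow 2)))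
      isCompact_univ
    simpa using h1
  have hstep2 : ∫ t, ∫ u, wt R t * (1 - ‖W t u‖ ^ 2) ∂mT ∂mT ≤
      (1 + 1 / η) * A + η * ∫ t, wt R t ∂mT := by
    rw [hA, ← integral_const_mul, ← integral_const_mul,
      ← integral_add ((tr_intR hAt).const_mul _) (i3.const_mul _)]
    exact integral_mono (tr_intR hBtc) (((tr_intR hAt).const_mul _).add (i3.const_mul _)) hBt
  -- the bound of A
  have hAb : A ≤ 8 * δ + 64 * K ^ 2 / N := by
    have hpt : ∀ t : 𝕋, ∫ u, wt R t * ‖Q t u - W t u‖ ^ 2 ∂mT ≤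
        R t * (8 * δ + 64 * K ^ 2 / N) := by
      intro t
      rw [integral_const_mul]
      have j1 : Continuous fun u : 𝕋 => ‖Q t u - G t u‖ ^ 2 :=
        ((hQc.comp (hcu t)).sub (hGc.comp (hcu t))).norm.pow 2
      have j2 : Continuous fun u : 𝕋 => ‖W t u - G t u‖ ^ 2 :=
        ((hWc.comp (hcu t)).sub (hGc.comp (hcu t))).norm.pow 2
      have j3 : Continuous fun u : 𝕋 => |‖Q t u‖ ^ 2 - 1| :=
        (((hQc.comp (hcu t)).norm.pow 2).sub continuous_const).abs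
      have h1 : ∫ u, ‖Q t u - W t u‖ ^ 2 ∂mT ≤
          2 * (∫ u, ‖Q t u - G t u‖ ^ 2 ∂mT) + 2 * ∫ u, ‖W t u - G t u‖ ^ 2 ∂mT := by
        rw [← integral_const_mul, ← integral_const_mul,
          ← integral_add ((tr_intR j1).const_mul _) ((tr_intR j2).const_mul _)]
        refine integral_mono (tr_intR (hdc t)) (((tr_intR j1).const_mul _).add
          ((tr_intR j2).const_mul _)) fun u => ?_
        show ‖Q t u - W t u‖ ^ 2 ≤ 2 * ‖Q t u - G t u‖ ^ 2 + 2 * ‖W t u - G t u‖ ^ 2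
        have h2 : ‖Q t u - W t u‖ ≤ ‖Q t u - G t u‖ + ‖W t u - G t u‖ := by
          have := norm_sub_le (Q t u - G t u) (W t u - G t u)
          rwa [sub_sub_sub_cancel_right] at this
        nlinarith [sq_nonneg (‖Q t u - G t u‖ - ‖W t u - G t u‖),
          norm_nonneg (Q t u - W t u)]
      have h2 : ∫ u, ‖Q t u - G t u‖ ^ 2 ∂mT ≤ ∫ u, |‖Q t u‖ ^ 2 - 1| ∂mT :=
        integral_mono (tr_intR j1) (tr_intR j3) fun u => norm_sub_phi_sq _
      have h3 : ∫ u, ‖W t u - G t u‖ ^ 2 ∂mT ≤ 2 * (4 * K ^ 2) / N := by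
        refine SM_L2 N hN hGc (4 * K ^ 2) (fun a b => ?_) t
        have h4 := QQ_lip m hm s K hs a b
        have j4 : Continuous fun u : 𝕋 => ‖G a u - G b u‖ ^ 2 :=
          ((hGc.comp (hcu a)).sub (hGc.comp (hcu b))).norm.pow 2
        have j5 : Continuous fun u : 𝕋 => ‖Q a u - Q b u‖ ^ 2 :=
          ((hQc.comp (hcu a)).sub (hQc.comp (hcu b))).norm.pow 2
        have h5 : ∫ u, ‖G a u - G b u‖ ^ 2 ∂mT ≤ ∫ u, 4 * ‖Q a u - Q b u‖ ^ 2 ∂mT := by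
          refine integral_mono (tr_intR j4) ((tr_intR j5).const_mul _) fun u => ?_
          show ‖G a u - G b u‖ ^ 2 ≤ 4 * ‖Q a u - Q b u‖ ^ 2
          have h6 : ‖G a u - G b u‖ ≤ 2 * ‖Q a u - Q b u‖ := norm_phi_sub_le _ _
          nlinarith [norm_nonneg (G a u - G b u)]
        rw [integral_const_mul] at h5
        linarith
      have h4 : ∫ u, |‖Q t u‖ ^ 2 - 1| ∂mT ≤ 2 := by
        have jq : Integrable (fun u : 𝕋 => ‖Q t u‖ ^ 2) mT :=
          tr_intR ((hQc.comp (hcu t)).norm.pow 2)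
        have h5 : ∫ u, |‖Q t u‖ ^ 2 - 1| ∂mT ≤ ∫ u, (‖Q t u‖ ^ 2 + 1) ∂mT := by
          refine integral_mono (tr_intR j3) ((tr_intR ((hQc.comp (hcu t)).norm.pow 2)).add
            (integrable_const _)) fun u => ?_
          show |‖Q t u‖ ^ 2 - 1| ≤ ‖Q t u‖ ^ 2 + 1
          rw [abs_le]
          constructor <;> nlinarith [sq_nonneg ‖Q t u‖]
        rw [integral_add jq (integrable_const _), QQ_sq m hm s t] at h5
        simp only [integral_const, probReal_univ, one_smul] at h5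
        linarith
      have h5 : ‖1 - (fourier 1 t : ℂ)‖ ^ 2 * ∫ u, |‖Q t u‖ ^ 2 - 1| ∂mT ≤ 4 * δ := by
        have h40 : 0 ≤ ∫ u, |‖Q t u‖ ^ 2 - 1| ∂mT := integral_nonneg fun u => abs_nonneg _
        have h41 := norm_one_sub_sq_le t
        have h42 := sq_nonneg ‖1 - (fourier 1 t : ℂ)‖
        rcases le_total δ (‖1 - (fourier 1 t : ℂ)‖ ^ 2) with h6 | h6
        · have := hflat t h6
          nlinarith
        · nlinarith
      have h6 : wt R t * ∫ u, ‖Q t u - W t u‖ ^ 2 ∂mT ≤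
          R t * (‖1 - (fourier 1 t : ℂ)‖ ^ 2 *
            (2 * (∫ u, |‖Q t u‖ ^ 2 - 1| ∂mT) + 2 * (2 * (4 * K ^ 2) / N))) := by
        unfold wt
        rw [mul_assoc]
        refine mul_le_mul_of_nonneg_left ?_ (hR0 t)
        refine mul_le_mul_of_nonneg_left ?_ (sq_nonneg _)
        linarith
      refine h6.trans (mul_le_mul_of_nonneg_left ?_ (hR0 t))
      have h7 : ‖1 - (fourier 1 t : ℂ)‖ ^ 2 * (2 * (2 * (4 * (K : ℝ) ^ 2) / N)) ≤
          4 * (2 * (2 * (4 * K ^ 2) / N)) := by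
        refine mul_le_mul_of_nonneg_right (norm_one_sub_sq_le t) (by positivity)
      have h8 : 4 * (2 * (2 * (4 * (K : ℝ) ^ 2) / N)) = 64 * K ^ 2 / N := by ring
      linarith
    have h1 : A ≤ ∫ t, R t * (8 * δ + 64 * K ^ 2 / N) ∂mT :=
      integral_mono (tr_intR hAt) ((tr_intR hRc).mul_const _) hpt
    rw [integral_mul_const] at h1
    have h2 : 0 ≤ 8 * δ + 64 * (K : ℝ) ^ 2 / N := by positivity
    nlinarith
  have hη' : 0 ≤ 1 + 1 / η := by positivity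
  have h9 := mul_le_mul_of_nonneg_left hAb hη'
  have h10 := mul_le_mul_of_nonneg_left hwm hη.le
  linarith

/-- **the transfer lemma** -/
theorem transfer (ε : ℝ) (hε : 0 < ε) : ∃ δ : ℝ, 0 < δ ∧ ∀ K : ℕ, ∃ D : ℕ,
    ∀ (m : ℕ) (s : ℕ → ℕ), 0 < m → (∀ j < m, s j ≤ K) →
    (∀ t : 𝕋, δ ≤ ‖1 - (fourier 1 t : ℂ)‖ ^ 2 → ∫ u, |‖QQ m s t u‖ ^ 2 - 1| ∂mT ≤ δ) →
    ∀ (h H : ℕ) (R : 𝕋 → ℝ) (c : ℤ → ℂ), (∀ t, 0 ≤ R t) →
    (∀ t, (R t : ℂ) = ∑ l ∈ Finset.Icc (-(h : ℤ)) h, c l * fourier l t) →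
    ∫ t, R t ∂mT ≤ 1 → h + D < H →
    ∫ t, wt R t * |‖QQ m s t (H • t)‖ ^ 2 - 1| ∂mT ≤ ε := by
  set η : ℝ := min ε 1 / 16 with hη
  have hη0 : 0 < η := by
    have : 0 < min ε 1 := lt_min hε one_pos
    positivity
  have hη1 : η ≤ 1 := by
    have : min ε 1 ≤ 1 := min_le_right _ _
    rw [hη]; linarith
  have hηε : 16 * η ≤ ε := by
    have : min ε 1 ≤ ε := min_le_left _ _
    rw [hη]; linarith
  refine ⟨η * ε / 128, by positivity, fun K => ?_⟩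
  obtain ⟨N, hN⟩ := exists_nat_gt (1024 * (K : ℝ) ^ 2 / (η * ε))
  have hN0 : 0 < N := by
    have h1 : (0 : ℝ) ≤ 1024 * (K : ℝ) ^ 2 / (η * ε) := by positivity
    exact_mod_cast lt_of_le_of_lt h1 hN
  refine ⟨2 + 2 * (K + N), fun m s hm hs hf h H R c hR0 hR hR1 hH => ?_⟩
  refine (transfer_aux K N hN0 (η * ε / 128) η (by positivity) hη0 m s hm hs hf h H R c hR0 hR hR1
    (by omega)).trans ?_
  have hN' : (0 : ℝ) < N := by exact_mod_cast hN0
  have h1 : 64 * (K : ℝ) ^ 2 / N ≤ η * ε / 16 := by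
    rw [div_lt_iff₀ (by positivity)] at hN
    rw [div_le_iff₀ hN']
    nlinarith
  have h2 : 1 + 1 / η ≤ 2 / η := by
    have h21 : 1 ≤ 1 / η := by
      rw [le_div_iff₀ hη0]; linarith
    have h22 : 2 / η = 1 / η + 1 / η := by ring
    linarith
  have h3 : (1 + 1 / η) * (8 * (η * ε / 128) + 64 * (K : ℝ) ^ 2 / N) ≤ 2 / η * (η * ε / 8) := by
    refine mul_le_mul h2 (by linarith) (by positivity) (by positivity)
  have h4 : 2 / η * (η * ε / 8) = ε / 4 := by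
    field_simp
    ring
  linarith

end P130
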